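import Crest.Statements.S0054
import Crest.Agent.R40.T1Final
import Crest.Agent.R40.T3Exist
import Crest.Agent.R40.T3CaseI158
import Crest.Agent.R40.T3Step1_638
import Crest.Agent.R40.T3CaseII
import Crest.Agent.R40.T3CaseIIIe467
import Crest.Agent.R40.T3C4b

set_option autoImplicit false
open Crest Crest.CombinatoricsR

namespace Crest.Agent.S0054

open Crest.Agent.R40.T3 in
theorem hT3 (U : Fin 5 → Set ℂ) (h : Cov U) : False := by
  have hI : ∀ x, ¬ Tri (Acc U x) := fun x =>
    Crest.Agent.R40.T3CaseI.caseI_of h (fun _ _ _ _ _ _ X _ ht => X.step1 ht) x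
  have hII : ∀ x, J U x = Finset.univ → ¬ Quad (Acc U x) ∧ ¬ Pent (Acc U x) := fun x hx => caseII h x hx
  refine T3_false_of (exists_cycle h) hI hII ?_
  refine Cov.caseIII_of_b h ?_ hI hII
  intro x a b c d hC
  obtain ⟨e, he⟩ : ∃ e : Fin 5, e ∉ ({a, b, c, d} : Finset (Fin 5)) := by
    by_contra hne
    push Not at hne
    have h1 : (Finset.univ : Finset (Fin 5)) ⊆ {a, b, c, d} := fun i _ => hne i
    have h2 := Finset.card_le_card h1
    have h3 : ({a, b, c, d} : Finset (Fin 5)).card ≤ 4 := Finset.card_le_four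
    simp only [Finset.card_univ, Fintype.card_fin] at h2
    omega
  simp only [Finset.mem_insert, Finset.mem_singleton, not_or] at he
  have hn : [a, b, c, d, e].Nodup := by
    simp only [List.nodup_cons, List.mem_cons, List.not_mem_nil, or_false, not_or,
      not_false_eq_true, List.nodup_nil, and_true]
    exact ⟨⟨hC.hab, hC.hac, hC.had, fun h => he.1 h.symm⟩, ⟨hC.hbc, hC.hbd, fun h => he.2.1 h.symm⟩,
      ⟨hC.hcd, fun h => he.2.2.1 h.symm⟩, fun h => he.2.2.2 h.symm⟩
  exact (Crest.Agent.R40.T3.C4b.III_b h hn hC.hJ hC.eab hC.ebc hC.ecd hC.eda hC.nac hC.nbd).1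

/-- For every colouring of the Euclidean plane with five colours there are two points at distance one that receive the same colour. No measurability or other restriction is placed on the colour classes. -/
theorem result
    (c : EuclideanSpace ℝ (Fin 2) → Fin 5) :
    ∃ x y : EuclideanSpace ℝ (Fin 2), dist x y = 1 ∧ c x = c y :=
  Crest.Agent.R40.T3.S0054_of Crest.Agent.R40.T1Final.hT1 (fun U h _ => hT3 U h) c

end Crest.Agent.S0054
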