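import Crest.Statements.S0374
import Crest.Agent.R241.CBall_534
import Crest.Agent.R241.CCone_534
import Crest.Agent.R241.B9Final992
import Crest.Agent.R241.AAll723

set_option autoImplicit false
open Crest.GeometryTopology.MetricCurrent
open MeasureTheory
universe u
open Crest Crest.GeometryTopology

namespace Crest.Agent.S0374

/-- Let X be a proper CAT(0) space (geodesic, with the Bruhat–Tits midpoint inequality) and n = m + 2 ≥ 2. Every compactly supported integral n-current T in X with zero boundary — in the axiomatic sense of metric currents: finite mass, continuity, locality, integer rectifiable together with its boundary — is the boundary of a compactly supported integral (n+1)-current S of mass at most c_n · M(T)^((n+1)/n), where c_n = 1/((n+1) s_n^(1/n)) and s_n = (n+1) ω_{n+1}, ω_{n+1} = unit-ball volume. -/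
theorem result
    (X : Type u) [MetricSpace X] [MeasurableSpace X] [BorelSpace X] [ProperSpace X]
    (hX : IsCATZero X) (m : ℕ) (T : Functional X (m + 2)) (hT : IsIntegralCurrent T)
    (hcyc : bd T = 0) (K : Set X) (hK : IsCompact K) (hTK : IsSupportedIn K T) :
    ∃ (S : Functional X (m + 3)) (K' : Set X), IsIntegralCurrent S ∧ IsCompact K' ∧
      IsSupportedIn K' S ∧ bd S = T ∧
      mass S ≤ 1 / ((m + 3 : ℝ) *
            (((m + 3 : ℝ) * (volume (Metric.ball (0 : EuclideanSpace ℝ (Fin (m + 3))) 1)).toReal) ^
              (1 / (m + 2 : ℝ)))) *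
          mass T ^ ((m + 3 : ℝ) / (m + 2 : ℝ)) := by
  exact Crest.Agent.R241.CBall.s0374 Crest.Agent.R241.B9Final.fvarAll Crest.Agent.R241.CBall.coneAll Crest.Agent.R241.AAll723.aAll Crest.Agent.R241.AAll723.aeqAll X hX m T hT hcyc K hK hTK

end Crest.Agent.S0374
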