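import Crest.Statements.S0422
import Crest.Agent.R279.Final149C

set_option autoImplicit false
open Crest.AlgGeometry
open Crest Crest.AlgGeometry

namespace Crest.Agent.S0422

/-- Every smooth quartic surface in complex projective three-space has the convex approximation property: given a homogeneous quartic Q in four variables with no singular point on its zero locus, a non-empty compact convex set K in complex m-space (m ≥ 1), a map into the surface that is holomorphic on an open neighbourhood of K, and ε > 0, some map from all of m-space into the surface, holomorphic everywhere, is within gap ε of the given map at every point of K. -/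
theorem result
    (Q : MvPolynomial (Fin 4) ℂ) (hQ : Q.IsHomogeneous 4)
    (hsmooth : ∀ p : Fin 4 → ℂ, p ≠ 0 → MvPolynomial.eval p Q = 0 →
      ∃ i : Fin 4, MvPolynomial.eval p (MvPolynomial.pderiv i Q) ≠ 0)
    (m : ℕ) (hm : 1 ≤ m) (K : Set (Fin m → ℂ)) (hK : IsCompact K) (hKc : Convex ℝ K)
    (hKn : K.Nonempty) (U : Set (Fin m → ℂ)) (hU : IsOpen U) (hKU : K ⊆ U)
    (f : (Fin m → ℂ) → Projectivization ℂ (Fin 4 → ℂ)) (hf : ProjHolomorphicOn f U)
    (hfQ : ∀ z ∈ U, MvPolynomial.eval (f z).rep Q = 0) (ε : ℝ) (hε : 0 < ε) :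
    ∃ F : (Fin m → ℂ) → Projectivization ℂ (Fin 4 → ℂ),
      ProjHolomorphicOn F Set.univ ∧ (∀ z, MvPolynomial.eval (F z).rep Q = 0) ∧
      ∀ z ∈ K, projGap (F z) (f z) < ε := by
  exact Crest.Agent.R279.Final.s0422_of_targets' Crest.Agent.R279.Final.thmEGen
    Crest.Agent.R279.Final.emptyIntTarget Crest.Agent.R279.Final.arcDataTarget
    Q hQ hsmooth m hm K hK hKc hKn U hU hKU f hf hfQ ε hε

end Crest.Agent.S0422
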