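import Crest.Statements.S0466
import Crest.Agent.R304.Poly484D
-- import your own Crest.Agent.* helpers here

set_option autoImplicit false
open Crest.Matchings
open Crest Crest.LogicCS

namespace Crest.Agent.S0466

open Crest.Agent.R304.Poly484 in
theorem pm_iff {v k : ℕ} (ends : Fin k → Fin v × Fin v) (hends : ∀ e, (ends e).1 ≠ (ends e).2)
    (M : Finset (Fin k)) : IsPerfectMatching ends M ↔
      IsPM Finset.univ (fun e => (ends e).1) (fun e => (ends e).2) M := by
  have key : ∀ w : Fin v, (M.filter fun e => (ends e).1 = w ∨ (ends e).2 = w)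
      = M ∩ cut (fun e => (ends e).1) (fun e => (ends e).2) {w} := by
    intro w
    ext e
    rw [Finset.mem_filter, Finset.mem_inter, mem_cut, Finset.mem_singleton, Finset.mem_singleton]
    have := hends e
    constructor
    · rintro ⟨h1, h2⟩
      refine ⟨h1, fun h3 => ?_⟩
      rcases h2 with h2 | h2
      · exact this (h2.trans (h3.mp h2).symm)
      · exact this ((h3.mpr h2).trans h2.symm)
    · rintro ⟨h1, h2⟩
      refine ⟨h1, ?_⟩
      by_contra h3
      rw [not_or] at h3
      exact h2 ⟨fun h => absurd h h3.1, fun h => absurd h h3.2⟩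
  constructor
  · intro h
    exact ⟨fun e _ => hends e, fun w _ => by rw [← key w]; exact h w⟩
  · intro h w
    rw [key w]
    exact h.one w (Finset.mem_univ w)

open Crest.Agent.R304.Poly484 in
theorem poly_eq {v k : ℕ} (ends : Fin k → Fin v × Fin v) (hends : ∀ e, (ends e).1 ≠ (ends e).2) :
    pmPolytope ends = PP Finset.univ (fun e => (ends e).1) (fun e => (ends e).2) := by
  unfold pmPolytope PP
  congr 1
  have h1 : {M : Finset (Fin k) | IsPerfectMatching ends M}
      = {M : Finset (Fin k) | IsPM Finset.univ (fun e => (ends e).1) (fun e => (ends e).2) M} := by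
    ext M
    exact pm_iff ends hends M
  rw [h1]
  rfl

/-- In a loopless multigraph on 2m ≥ 2 vertices (parallel edges distinguished), let x be a point of the perfect-matching polytope, the convex hull of the zero-one vectors of perfect matchings in the edge space. Then the number of edges e with x_e > 0, minus the dimension of the minimal face of the polytope containing x (the dimension of the span of the directions h with x + t·h in the polytope for all real t small in absolute value), is at most 3m − 2. -/
theorem result (m : ℕ) (hm : 1 ≤ m) (k : ℕ)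
    (ends : Fin k → Fin (2 * m) × Fin (2 * m)) (hends : ∀ e, (ends e).1 ≠ (ends e).2)
    (x : Fin k → ℝ) (hx : x ∈ pmPolytope ends) :
    ((Finset.univ.filter fun e => 0 < x e).card : ℤ) - (pmFaceDim ends x : ℤ) ≤ 3 * (m : ℤ) - 2 := by
  have hx' : x ∈ Crest.Agent.R304.Poly484.PP Finset.univ (fun e => (ends e).1)
      (fun e => (ends e).2) := by
    rw [← poly_eq ends hends]; exact hx
  have h := Crest.Agent.R304.Poly484.dim_bound m Finset.univ (fun e => (ends e).1)
    (fun e => (ends e).2) hm (by simp) (fun e => Finset.mem_univ _) (fun e => Finset.mem_univ _) x hx'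
  have hQ := Crest.Agent.R304.Poly484.PP_sub_Q hx'
  have h1 : (Finset.univ.filter fun e => 0 < x e) = Crest.Agent.R304.Poly484.supp x := by
    ext e
    rw [Crest.Agent.R304.Poly484.mem_supp, Finset.mem_filter]
    constructor
    · intro h2; exact h2.2.ne'
    · intro h2; exact ⟨Finset.mem_univ _, lt_of_le_of_ne (hQ.nonneg e) (Ne.symm h2)⟩
  have h2 : pmFaceDim ends x = Module.finrank ℝ (Crest.Agent.R304.Poly484.dirSub Finset.univ
      (fun e => (ends e).1) (fun e => (ends e).2) x hx') := by
    unfold pmFaceDim
    have h3 : pmDirections ends x = (Crest.Agent.R304.Poly484.dirSub Finset.univ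
      (fun e => (ends e).1) (fun e => (ends e).2) x hx' : Set (Fin k → ℝ)) := by
      ext h
      rw [SetLike.mem_coe, Crest.Agent.R304.Poly484.mem_dirSub, ← poly_eq ends hends]
      rfl
    rw [h3, Submodule.span_eq]
  rw [h1, h2]
  omega

end Crest.Agent.S0466
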