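import Crest.Statements.S0530
import Crest.Agent.R339.Ant575H
import Crest.Agent.R339.C2All716
import Crest.Agent.R339.Cell220J
import Crest.Agent.R339.MF569E
import Crest.Agent.R339.DF833G

set_option autoImplicit false
open MeasureTheory Crest.MathPhysics.SpinGlass
open Crest Crest.MathPhysics

namespace Crest.Agent.S0530

/-- For every accuracy `ε > 0` there are finitely many alternating cost and mixer angles, fixed once and for all, such that for all sufficiently many spins the disorder-averaged expected energy per spin of the alternating state prepared from the uniform superposition is at least the disorder-averaged maximal energy per spin minus `ε`; the model is the mean-field Ising spin glass with independent standard Gaussian pair couplings and normalisation `1/√n`. -/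
theorem result :
    ∀ ε > (0 : ℝ), ∃ angles : List (ℝ × ℝ), ∃ N : ℕ, ∀ n ≥ N,
      (∫ J, maxPairEnergy n J ∂(gaussianCouplings n)) / n - ε ≤
        (∫ J, expectedEnergy n J (alternatingState n J angles) ∂(gaussianCouplings n)) / n :=
  R339.Asm.final_of_QStmt (R339.Asm.QStmt_of_bound (R339.C2.qbound_of_cells
    (fun _ c S L _ h hG V hV => R339.Cell.cells (R339.Cel.mft_holds _ S L c) h hG V hV)
    R339.Ant.antStmt_holds))

end Crest.Agent.S0530
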